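import Vale.Agent.P032X.S5.H843.FrameN
import Vale.Agent.P032X.S5.H843.Core7

/-!
# P032: unit pairs with a two-pair point or a point near which no four of the sets suffice

`exists_pairD_of` : the statement in the plane for maximal families, from a theorem on irredundant
covers `Irr V T`.
-/

open Set Filter Topology Metric

noncomputable section

namespace Vale.Agent.P032.S5.H843

open Vale.Agent.P032.Six Vale.Agent.P032.S5.H926

/-- near `x` four of the sets suffice, and no three of these four, and at distance one from `x`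
there are a common boundary point of two of them near which these two suffice, and the same for the
other two -/
def DU {E : Type*} [PseudoMetricSpace E] (U : Fin 6 → Set E) (x : E) : Prop :=
  ∃ a b c d : Fin 6, [a, b, c, d].Nodup ∧
    x ∉ closure ((⋃ j, U j) \ ⋃ i ∈ ({a, b, c, d} : Set (Fin 6)), U i) ∧
    (∀ s ⊂ ({a, b, c, d} : Set (Fin 6)), x ∈ closure ((⋃ j, U j) \ ⋃ i ∈ s, U i)) ∧
    ∃ p q, dist p x = 1 ∧ dist q x = 1 ∧
      p ∈ closure (U a) ∧ p ∈ closure (U b) ∧
      p ∉ closure ((⋃ j, U j) \ ⋃ i ∈ ({a, b} : Set (Fin 6)), U i) ∧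
      q ∈ closure (U c) ∧ q ∈ closure (U d) ∧
      q ∉ closure ((⋃ j, U j) \ ⋃ i ∈ ({c, d} : Set (Fin 6)), U i)

/-- the palette of a point suffices near it -/
theorem Irr_suff {U : Fin 6 → Set ℂ} {T : ℂ → Set (Fin 6)} (h : Irr U T) (x : ℂ) :
    x ∉ closure ((⋃ j, U j) \ ⋃ i ∈ T x, U i) := by
  rw [mem_closure_iff_frequently, not_frequently]
  filter_upwards [h.nhd x] with w hw hwW
  obtain ⟨i, hi⟩ := h.ne w
  have h1 : w ∉ XX U := by
    obtain ⟨j, hj⟩ := mem_iUnion.1 hwW.1
    intro hX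
    simp only [XX] at hX
    exact hX j hj
  exact hwW.2 (mem_iUnion₂.2 ⟨i, hw hi, h.off w h1 i hi⟩)

/-- points near which no `n` of the sets suffice -/
def XU {E : Type*} [PseudoMetricSpace E] (U : Fin 6 → Set E) (n : ℕ) : Set E :=
  {z | ∀ s : Set (Fin 6), s.ncard ≤ n → z ∈ closure ((⋃ j, U j) \ ⋃ i ∈ s, U i)}

theorem isClosed_XU {E : Type*} [PseudoMetricSpace E] (U : Fin 6 → Set E) (n : ℕ) :
    IsClosed (XU U n) := by
  have : XU U n = ⋂ s : {s : Set (Fin 6) // s.ncard ≤ n},
      closure ((⋃ j, U j) \ ⋃ i ∈ (s : Set (Fin 6)), U i) := by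
    ext z; simp [XU]
  rw [this]
  exact isClosed_iInter fun s => isClosed_closure

theorem XU_anti {E : Type*} [PseudoMetricSpace E] (U : Fin 6 → Set E) {n n' : ℕ} (hn : n ≤ n') :
    XU U n' ⊆ XU U n := fun _ hz s hs => hz s (hs.trans hn)

end Vale.Agent.P032.S5.H843
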